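import Mathlib
import Vale.Agent.P092.H553.Defs

/-!
P092, stage (L) (helper776): the functions of `Vale.Agent.P092.H553.Defs` for a group `G` acting
through a homomorphism to `SL_3(ℝ)` with finite kernel and discrete image.
-/

namespace Vale.Agent.P092.L.H553

open Vale.Agent.P092.H553 (hs)

/-- A homomorphism to `SL_3(ℝ)` such that all balls are finite, for instance the inclusion of a
discrete subgroup. -/
class Emb (G : Type) [Group G] where
  /-- the homomorphism -/
  hom : G →* Matrix.SpecialLinearGroup (Fin 3) ℝ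
  /-- balls are finite -/
  fin : ∀ R : ℝ, {g : G | hs (hom g : Matrix (Fin 3) (Fin 3) ℝ) ≤ R}.Finite

variable {G3 : Type} [Group G3] [Emb G3]

/-- The real matrix of `g`. -/
def rm (g : G3) : Matrix (Fin 3) (Fin 3) ℝ :=
  (Emb.hom g : Matrix.SpecialLinearGroup (Fin 3) ℝ)

/-- `A(g) = ‖g‖²`. -/
def rA (g : G3) : ℝ := hs (rm g)

/-- `B(g) = ‖g⁻¹‖²`. -/
def rB (g : G3) : ℝ := hs (rm g⁻¹)

/-- `G12(g) = A² / B` (square of the first singular value gap, up to constants). -/
noncomputable def G12 (g : G3) : ℝ := rA g ^ 2 / rB g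

/-- `G23(g) = B² / A`. -/
noncomputable def G23 (g : G3) : ℝ := rB g ^ 2 / rA g

/-- The regular region. -/
def Reg (R : ℝ) (g : G3) : Prop := R ≤ G12 g ∧ R ≤ G23 g

/-- `N(g) = g gᵀ / A(g)` (positive semidefinite of trace one). -/
noncomputable def NN (g : G3) : Matrix (Fin 3) (Fin 3) ℝ :=
  (rA g)⁻¹ • (rm g * (rm g).transpose)

/-- `N*(g) = g⁻ᵀ g⁻¹ / B(g)` (positive semidefinite of trace one). -/
noncomputable def NS (g : G3) : Matrix (Fin 3) (Fin 3) ℝ :=
  (rB g)⁻¹ • ((rm g⁻¹).transpose * rm g⁻¹)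

theorem rm_mul (g h : G3) : rm (g * h) = rm g * rm h := by
  rw [rm, map_mul, Matrix.SpecialLinearGroup.coe_mul]
  rfl

theorem rm_inv (g : G3) : rm g⁻¹ = (rm g).adjugate := by
  rw [rm, map_inv, Matrix.SpecialLinearGroup.coe_inv]
  rfl

theorem rm_det (g : G3) : (rm g).det = 1 := (Emb.hom g).det_coe

theorem finite_rA_le (R : ℝ) : {g : G3 | rA g ≤ R}.Finite := Emb.fin R

end Vale.Agent.P092.L.H553
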