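import Vale.Agent.P092.L.H553.Contra
import Vale.Agent.P092.L.H538.PropRow
import Vale.Agent.P092.H714.AsmA
import Vale.Agent.P092.H377.Lattice
import Vale.Agent.P092.H132.T1

/-!
P092, stage (L) + (S) (helper776): the geometric data of a discrete subgroup of `SL_3(ℝ)` in the
form of helper714.
-/

set_option linter.all false

open scoped InnerProductSpace
open Filter Topology ContinuousLinearMap MeasureTheory

namespace Vale.Agent.P092.L.H553

open Vale.Agent.P092.H160 Vale.Agent.P092.L.H732 Vale.Agent.P092.H200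
open Vale.Agent.P092.H553 (hs)
open Vale.Agent.P092.H714 (GeoA RegA NoInvA ConfA InvTr massA contraA)
open Vale.Agent.P092.H377 (XX nsx nsx_val nsx_mul aX actX CAct isCompact_XX SL3R)
open Vale.Agent.P092.H432 (ARep mp ep)

/-- There is no state on `C(XX)` invariant under the group. -/
def NoState (G : Type) [Group G] [Emb G] : Prop :=
  ∀ ℓ : C(XX, ℝ) →ₗ[ℝ] ℝ, (∀ F, 0 ≤ F → 0 ≤ ℓ F) → 0 < ℓ 1 →
    (∀ (s : G) (F : C(XX, ℝ)), ℓ (actX.pull (Emb.hom s) F) = ℓ F) → False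

section

variable {G3 : Type} [Group G3] [Emb G3]

theorem geoA_emb : GeoA (Γ := G3) G12 G23 q1 {f | Adm f} where
  q_mem := q1_mem
  q_inv := q1_inv
  q_tr := q1_tendsto
  q_low := q1_low
  reg_shift := fun a => by
    obtain ⟨C, hC, h⟩ := reg_shift a
    exact ⟨C, hC, h⟩
  mem := fun f hf => hf.mem
  right := fun f hf t => by
    have h := (Adm.right hf t).abs
    rw [abs_zero] at h
    refine h.congr fun g => ?_
    rw [abs_mul, abs_of_nonneg (q1_nonneg g)]
  far := fun f hf r δ hr hδ => by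
    obtain ⟨η, hη, hfη⟩ := hf.uc δ hδ
    obtain ⟨hT1, F, hF⟩ := L.H132.T1 (G3 := G3) (R0 := r) (δ := η) (by linarith) hη
    refine ⟨(η ^ 2 / (2 * r)) ^ 2, by positivity, F, ?_, ?_⟩
    · intro k h hk hh hd
      exact hT1 k h hk hh (hfη _ _ hd)
    · intro k₁ h₁ k₂ h₂ e1 e2 e3 e4 d1 d2 he
      exact hF _ _ _ _ e1 e2 e3 e4 (hfη _ _ d1) (hfη _ _ d2) he

/-- normalisation of a continuous function -/
theorem adm_norm (F : C(XX, ℝ)) {c : ℝ} (hc : 0 < c) (hF : ∀ g : G3, |FN F g| ≤ c) :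
    Adm (fun g : G3 => (FN F g + c) / (2 * c)) := by
  refine ⟨fun g => ?_, fun δ hδ => ?_⟩
  · have := abs_le.mp (hF g)
    constructor
    · exact div_nonneg (by linarith) (by positivity)
    · rw [div_le_one (by positivity)]; linarith
  · obtain ⟨η, hη, h⟩ := uc_FN (G3 := G3) F (2 * c * δ) (by positivity)
    refine ⟨η, hη, fun g g' hd => h g g' ?_⟩
    have e : (FN F g + c) / (2 * c) - (FN F g' + c) / (2 * c) =
        (FN F g - FN F g') / (2 * c) := by ring
    rw [e, abs_div, abs_of_pos (show 0 < 2 * c by positivity), le_div_iff₀ (by positivity)] at hd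
    linarith

theorem noInvA_emb (h : NoState G3) : NoInvA {f : G3 → ℝ | Adm f} := by
  intro ℓ hadd hsmul hpos hone hinv
  have hb : ∀ F : C(XX, ℝ), ∃ C, ∀ g : G3, |FN F g| ≤ C := fun F => ⟨_, abs_FN F⟩
  have hc : ∀ c : ℝ, ∃ C, ∀ g : G3, |(fun _ : G3 => c) g| ≤ C := fun c => ⟨|c|, fun _ => le_rfl⟩
  refine h
    { toFun := fun F => ℓ (FN F)
      map_add' := fun F G => hadd (FN F) (FN G) (hb F) (hb G)
      map_smul' := fun c F => hsmul c (FN F) (hb F) } ?_ ?_ ?_
  · intro F hF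
    exact hpos (FN F) (hb F) fun g => hF _
  · exact hone
  · intro s F
    change ℓ (fun g => F (aX (Emb.hom s) (nsx (Emb.hom g)))) = ℓ (FN F)
    have e1 : (fun g : G3 => F (aX (Emb.hom s) (nsx (Emb.hom g)))) = fun g => FN F (s * g) := by
      funext g
      rw [FN, map_mul, nsx_mul]
    rw [e1]
    obtain ⟨c, hcd⟩ : ∃ c : ℝ, c = ‖F‖ + 1 := ⟨_, rfl⟩
    have hcpos : 0 < c := by rw [hcd]; positivity
    have hFc : ∀ g : G3, |FN F g| ≤ c := fun g => (abs_FN F g).trans (by rw [hcd]; linarith)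
    obtain ⟨f, hfd⟩ : ∃ f : G3 → ℝ, f = fun g => (FN F g + c) / (2 * c) := ⟨_, rfl⟩
    have hf : Adm f := by rw [hfd]; exact adm_norm F hcpos hFc
    have hfb : ∀ t : G3, ∃ C, ∀ g : G3, |f (t * g)| ≤ C := fun t => ⟨1, fun g => hf.abs _⟩
    have key := hinv f hf s
    have hlin : ∀ t : G3, ℓ (fun g => FN F (t * g)) =
        2 * c * ℓ (fun g => f (t * g)) + ℓ (fun _ => -c) := by
      intro t
      rw [← hsmul (2 * c) (fun g => f (t * g)) (hfb t)]
      obtain ⟨C, hC⟩ := hfb t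
      rw [← hadd (fun g => 2 * c * f (t * g)) (fun _ => -c) ⟨2 * c * C, fun g => ?_⟩ (hc _)]
      · congr 1
        funext g
        rw [hfd]
        field_simp
        ring
      · rw [abs_mul, abs_of_pos (show 0 < 2 * c by positivity)]
        exact mul_le_mul_of_nonneg_left (hC g) (by positivity)
    have h1 := hlin s
    have h2 := hlin 1
    simp only [one_mul] at h2
    rw [h1, h2, key]

end

/-! ### Subgroups of `SL_3(ℝ)` -/

/-- A discrete subgroup of `SL_3(ℝ)`. -/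
noncomputable abbrev embDisc (Γ : Subgroup SL3R) [DiscreteTopology Γ] : Emb Γ where
  hom := Γ.subtype
  fin := fun R => Vale.Agent.P092.H377.finite_ball Γ R

/-- Lattices have no invariant state. -/
theorem noState_lattice (Γ : Subgroup SL3R) [DiscreteTopology Γ] [MeasurableSpace (SL3R ⧸ Γ)]
    [BorelSpace (SL3R ⧸ Γ)] (μ : Measure (SL3R ⧸ Γ)) [IsFiniteMeasure μ]
    [SMulInvariantMeasure SL3R (SL3R ⧸ Γ) μ] (hμ : μ ≠ 0) : @NoState Γ _ (embDisc Γ) := by
  intro ℓ h1 h2 h3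
  exact Vale.Agent.P092.H377.no_inv_of_covolume Γ μ hμ ℓ h1 h2 fun s hs F => h3 ⟨s, hs⟩ F

/-! ### Subgroups of `SL_3(ℤ)` -/

/-- A subgroup of `SL_3(ℤ)`. -/
noncomputable abbrev embZ (Γ : Subgroup (Matrix.SpecialLinearGroup (Fin 3) ℤ)) : Emb Γ where
  hom := (Matrix.SpecialLinearGroup.map (Int.castRingHom ℝ)).comp Γ.subtype
  fin := fun R => by
    have h : {u : Vale.Agent.P092.H553.G3 | Vale.Agent.P092.H553.rA u ≤ R}.Finite :=
      Vale.Agent.P092.H132.finite_rA_le R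
    exact h.preimage (Set.injOn_of_injective Subtype.val_injective)

open Vale.Agent.P092.H377 in
/-- There is no state on `C(XX)` invariant under the transvections `TT i (d m)`. -/
theorem no_inv_TT_mul (d : ℕ) (hd : 0 < d) (L : C(XX, ℝ) →ₗ[ℝ] ℝ) (hL : ∀ F, 0 ≤ F → 0 ≤ L F)
    (h1 : 0 < L 1) (hinv : ∀ (i : Fin 3) (m : ℕ) (F : C(XX, ℝ)),
      L (actX.pull (TT i ((d : ℝ) * m)) F) = L F) : False := by
  set C : ℝ := 3 * ∑' n : ℤ, (1 + (n : ℝ) ^ 2)⁻¹ with hC
  have hd1 : (1 : ℝ) ≤ d := by exact_mod_cast hd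
  have hz : ∀ i, L (dg i) = 0 := by
    intro i
    have hnn : 0 ≤ L (dg i) := hL _ fun N => (mem_XX.1 N.2).1.diag i
    have hM : ∀ M : ℕ, M * L (dg i) ≤ C * L 1 := by
      intro M
      have h2 : ∑ m ∈ Finset.range M, L (actX.pull (TT i ((d : ℝ) * m)) (dg i)) =
          M * L (dg i) := by
        simp [hinv]
      rw [← h2, ← map_sum, ← smul_eq_mul, ← map_smul, ← sub_nonneg, ← map_sub]
      refine hL _ ?_
      rw [ContinuousMap.le_def]
      intro N
      rw [ContinuousMap.zero_apply, ContinuousMap.sub_apply, ContinuousMap.smul_apply,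
        ContinuousMap.one_apply, ContinuousMap.sum_apply, smul_eq_mul, mul_one, sub_nonneg]
      refine le_trans (Finset.sum_le_sum fun m _ => ?_)
        (sum_quad_le ((N : Matrix (Fin 3) (Fin 3) ℝ) i (i + 1) /
          (N : Matrix (Fin 3) (Fin 3) ℝ) i i / d) M)
      have h3 := pact_TT_le i ((d : ℝ) * m) N.2
      obtain ⟨x, hx⟩ : ∃ x, x = (N : Matrix (Fin 3) (Fin 3) ℝ) i (i + 1) /
          (N : Matrix (Fin 3) (Fin 3) ℝ) i i := ⟨_, rfl⟩
      rw [← hx] at h3 ⊢
      have h4 : ((m : ℝ) - x / d) ^ 2 ≤ ((d : ℝ) * m - x) ^ 2 := by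
        have e : (d : ℝ) * m - x = d * ((m : ℝ) - x / d) := by field_simp
        rw [e, mul_pow]
        have : (1 : ℝ) ≤ (d : ℝ) ^ 2 := one_le_pow₀ hd1
        nlinarith [sq_nonneg ((m : ℝ) - x / d)]
      have h5 : (0 : ℝ) ≤ pact (TT i ((d : ℝ) * m)) N i i :=
        (mem_XX.1 (pact_mem (TT i ((d : ℝ) * m)) N.2)).1.diag i
      change pact (TT i ((d : ℝ) * m)) N i i ≤ _
      rw [← one_div, le_div_iff₀ (by positivity)]
      refine le_trans ?_ h3
      exact mul_le_mul_of_nonneg_left (by linarith) h5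
    by_contra hne
    have hpos : 0 < L (dg i) := lt_of_le_of_ne hnn (Ne.symm hne)
    obtain ⟨M, hM'⟩ := exists_nat_gt (C * L 1 / L (dg i))
    rw [div_lt_iff₀ hpos] at hM'
    exact absurd (hM M) (not_le.2 hM')
  have hsum : (1 : C(XX, ℝ)) = ∑ i, dg i := by
    ext N
    simp only [ContinuousMap.sum_apply, ContinuousMap.one_apply]
    exact (N.2.2.2).symm
  rw [hsum, map_sum] at h1
  simp [hz] at h1

open Vale.Agent.P092.H377 in
/-- Finite index subgroups of `SL_3(ℤ)` have no invariant state. -/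
theorem noState_fi (Γ : Subgroup (Matrix.SpecialLinearGroup (Fin 3) ℤ)) [Γ.FiniteIndex] :
    @NoState Γ _ (embZ Γ) := by
  intro ℓ h1 h2 h3
  -- the integral transvections
  have hE : ∀ i : Fin 3, ∃ E : Matrix.SpecialLinearGroup (Fin 3) ℤ,
      ∀ k : ℕ, ((E ^ k : Matrix.SpecialLinearGroup (Fin 3) ℤ) : Matrix (Fin 3) (Fin 3) ℤ) =
        Matrix.transvection i (i + 1) (k : ℤ) := by
    intro i
    obtain ⟨E, hE⟩ : ∃ E : Matrix.SpecialLinearGroup (Fin 3) ℤ,
        (E : Matrix (Fin 3) (Fin 3) ℤ) = Matrix.transvection i (i + 1) 1 :=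
      ⟨⟨Matrix.transvection i (i + 1) 1, Matrix.det_transvection_of_ne _ _ (ne_succ3 i) _⟩, rfl⟩
    refine ⟨E, fun k => ?_⟩
    induction k with
    | zero =>
      rw [Nat.cast_zero, Matrix.transvection_zero]
      rfl
    | succ k ih =>
      have e : ((E ^ (k + 1) : Matrix.SpecialLinearGroup (Fin 3) ℤ) :
          Matrix (Fin 3) (Fin 3) ℤ) =
          ((E ^ k : Matrix.SpecialLinearGroup (Fin 3) ℤ) : Matrix (Fin 3) (Fin 3) ℤ) *
            (E : Matrix (Fin 3) (Fin 3) ℤ) := by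
        rw [pow_succ]; rfl
      rw [e, ih, hE, Matrix.transvection_mul_transvection_same _ _ (ne_succ3 i)]
      push_cast
      rfl
  choose E hE using hE
  have hd : ∀ i, ∃ d : ℕ, 0 < d ∧ E i ^ d ∈ Γ := by
    intro i
    obtain ⟨d, hd0, -, hd⟩ := Subgroup.exists_pow_mem_of_index_ne_zero
      (Subgroup.FiniteIndex.index_ne_zero (H := Γ)) (E i)
    exact ⟨d, hd0, hd⟩
  choose d hd0 hd using hd
  refine no_inv_TT_mul (d 0 * d 1 * d 2) (by have := hd0 0; have := hd0 1; have := hd0 2; positivity)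
    ℓ h1 h2 fun i m F => ?_
  have hmem : E i ^ (d 0 * d 1 * d 2 * m) ∈ Γ := by
    have hdvd : d i ∣ d 0 * d 1 * d 2 * m := by
      fin_cases i
      · exact ⟨d 1 * d 2 * m, by simp; ring⟩
      · exact ⟨d 0 * d 2 * m, by simp; ring⟩
      · exact ⟨d 0 * d 1 * m, by simp; ring⟩
    obtain ⟨e, he⟩ := hdvd
    rw [he, pow_mul]
    exact Γ.pow_mem (hd i) e
  have key := h3 ⟨_, hmem⟩ F
  have e1 : ((Matrix.SpecialLinearGroup.map (Int.castRingHom ℝ)).comp Γ.subtype) ⟨_, hmem⟩ =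
      TT i (((d 0 * d 1 * d 2 : ℕ) : ℝ) * m) := by
    apply Subtype.ext
    change (((E i ^ (d 0 * d 1 * d 2 * m) : Matrix.SpecialLinearGroup (Fin 3) ℤ) :
      Matrix (Fin 3) (Fin 3) ℤ)).map (Int.castRingHom ℝ) = Matrix.transvection i (i + 1) _
    rw [hE]
    ext a b
    simp only [Matrix.transvection, Matrix.map_apply, Matrix.add_apply, Matrix.one_apply,
      Matrix.single_apply, map_add, Int.coe_castRingHom]
    split_ifs <;> push_cast <;> ring
  rw [← e1]
  exact key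

end Vale.Agent.P092.L.H553
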