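import Vale.Agent.P092.L.H553.Inst
import Vale.Agent.P092.H160.Bridge

/-!
P092, stage (L), `t = 1` (helper776): lattices of `SL_3(ℝ)`.
-/

set_option linter.all false

open MeasureTheory

namespace Vale.Agent.P092.L.H553

open Vale.Agent.P092.H160 Vale.Agent.P092.H200
open Vale.Agent.P092.H377 (SL3R)

/-- `t = 1`. -/
theorem no_iso_emb (G : Type) [Group G] [Emb G]
    (hICC : ∀ g : G, g ≠ 1 → Set.Infinite {y : G | ∃ h, y = h * g * h⁻¹}) (hNS : NoState G)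
    (Λ : Type) [Group Λ] (hΛ : Clustered Λ) : IsEmpty (St.StarIso G Λ) := by
  refine ⟨fun θ => ?_⟩
  obtain ⟨V, hV⟩ := Vale.Agent.P092.H553.exists_frame hICC (toAlg θ)
  obtain ⟨ℓ, h1, h2, h3⟩ := exists_state hV
    (fun K hK ε hε => L.H538.propA hV K hK hε) hΛ
  exact hNS ℓ h1 h2 h3

/-- Infinite conjugacy classes inside the subgroup. -/
theorem icc_lattice (Γ : Subgroup SL3R) [MeasurableSpace (SL3R ⧸ Γ)]
    [BorelSpace (SL3R ⧸ Γ)] (μ : Measure (SL3R ⧸ Γ)) [IsFiniteMeasure μ]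
    [SMulInvariantMeasure SL3R (SL3R ⧸ Γ) μ] (hμ : μ ≠ 0) (g : Γ) (hg : g ≠ 1) :
    Set.Infinite {y : Γ | ∃ h, y = h * g * h⁻¹} := by
  intro hfin
  have hg' : (g : SL3R) ≠ 1 := fun h => hg (Subtype.ext (h.trans (Subgroup.coe_one Γ).symm))
  have h1 := Vale.Agent.P092.H377.icc_of_covolume Γ μ hμ (g : SL3R) g.2 hg'
  refine h1 ((hfin.image (fun y : Γ => (y : SL3R))).subset fun x hx => ?_)
  obtain ⟨s, hs, hx⟩ := hx
  refine ⟨⟨s, hs⟩ * g * ⟨s, hs⟩⁻¹, ⟨⟨s, hs⟩, rfl⟩, ?_⟩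
  rw [hx]
  simp only [Subgroup.coe_mul, Subgroup.coe_inv]

/-- Lattices of `SL_3(ℝ)`, `t = 1`. -/
theorem no_iso_lattice (Γ : Subgroup SL3R) [DiscreteTopology Γ] [MeasurableSpace (SL3R ⧸ Γ)]
    [BorelSpace (SL3R ⧸ Γ)] (μ : Measure (SL3R ⧸ Γ)) [IsFiniteMeasure μ]
    [SMulInvariantMeasure SL3R (SL3R ⧸ Γ) μ] (hμ : μ ≠ 0) (Λ : Type) [Group Λ]
    (hΛ : Clustered Λ) : IsEmpty (St.StarIso Γ Λ) :=
  @no_iso_emb Γ _ (embDisc Γ) (icc_lattice Γ μ hμ) (noState_lattice Γ μ hμ) Λ _ hΛ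

end Vale.Agent.P092.L.H553
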