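import Vale.Agent.P092.H553.Balance
import Vale.Agent.P092.L.H732.Q3
import Vale.Agent.P092.L.H428.Cutoff
import Vale.Agent.P092.L.H132.T1

/-!
P092 (helper553): far pairs, from the confinement of the elements commuting with `K`.
-/

set_option linter.all false

open scoped InnerProductSpace
open Filter Topology ContinuousLinearMap

namespace Vale.Agent.P092.L.H553

open Vale.Agent.P092.H160 Vale.Agent.P092.L.H132 Vale.Agent.P092.L.H732
open Vale.Agent.P092.H553 hiding G3 en rm rA rB G12 G23 Reg NN NS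

variable {G3 : Type} [Group G3] [Emb G3]
variable {Λ : Type} [Group Λ] {V : Λ →* (Ell2 G3 →L[ℂ] Ell2 G3)}

/-- Confinement: the elements commuting with `K` have uniformly small mass in the deep regular
region. -/
def Conf (V : Λ →* (Ell2 G3 →L[ℂ] Ell2 G3)) (K : Subgroup Λ) : Prop :=
  ∀ ε : ℝ, 0 < ε → ∃ R : ℝ, ∀ w : Λ, (∀ v ∈ K, w * v = v * w) →
    ‖mo (ind fun g : G3 => Reg R (g : G3)) (V w (dl 1))‖ ≤ ε

theorem norm_mo_ind_mono {X : Type} {P Q : X → Prop} (h : ∀ x, P x → Q x) (ξ : Ell2 X) :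
    ‖mo (ind P) ξ‖ ≤ ‖mo (ind Q) ξ‖ := by
  refine norm_mo_le_mo (abs_ind_le P) (abs_ind_le Q) (fun x => ?_) ξ
  by_cases hx : P x
  · rw [ind_pos hx, ind_pos (h x hx)]
  · rw [ind_neg hx, abs_zero]; exact abs_nonneg _

theorem Reg.mono {R R' : ℝ} (h : R' ≤ R) {g : G3} (hg : Reg R g) : Reg R' g :=
  ⟨h.trans hg.1, h.trans hg.2⟩

theorem reg_iff {R : ℝ} (hR : 0 < R) (g : G3) : Reg R g ↔ Real.log R ≤ H428.gam g := by
  constructor
  · exact H428.le_gam hR
  · intro h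
    rw [H428.gam, le_min_iff] at h
    have h1 : 0 < G12 g := lt_of_lt_of_le (by norm_num) (G12_ge g)
    have h2 : 0 < G23 g := lt_of_lt_of_le (by norm_num) (G23_ge g)
    exact ⟨(Real.log_le_log_iff hR h1).mp h.1, (Real.log_le_log_iff hR h2).mp h.2⟩

/-- Translations move the regular regions by bounded factors. -/
theorem reg_shift (a : G3) : ∃ C : ℝ, 0 < C ∧ ∀ R : ℝ, 0 < R → ∀ g : G3, Reg (C * R) (a * g) →
    Reg R g := by
  refine ⟨Real.exp (2 * (H428.cc a 1 + H428.cc (1 : G3)⁻¹ a⁻¹)), Real.exp_pos _,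
    fun R hR g hg => ?_⟩
  have h1 := H428.abs_gam a g 1
  rw [mul_one] at h1
  rw [reg_iff hR]
  rw [reg_iff (mul_pos (Real.exp_pos _) hR), Real.log_mul (Real.exp_pos _).ne' hR.ne',
    Real.log_exp] at hg
  have := (abs_le.mp h1).2
  linarith

theorem conf_shift (hV : Frame V) {K : Subgroup Λ} (hc : Conf V K) (a : G3) {ε : ℝ} (hε : 0 < ε) :
    ∃ R : ℝ, 3 ≤ R ∧ ∀ w : Λ, (∀ v ∈ K, w * v = v * w) →
      ‖mo (ind fun g : G3 => Reg R (g : G3)) (lam a (V w (dl 1)))‖ ≤ ε := by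
  obtain ⟨R, hR⟩ := hc ε hε
  obtain ⟨C, hC, hsh⟩ := reg_shift (a : G3)
  refine ⟨max 3 (C * max R 1), le_max_left _ _, fun w hw => ?_⟩
  have h1 : lam a (mo (fun g : G3 => ind (fun g : G3 => Reg (max 3 (C * max R 1)) (g : G3)) (a * g))
      (V w (dl 1))) = mo (ind fun g : G3 => Reg (max 3 (C * max R 1)) (g : G3))
        (lam a (V w (dl 1))) := by
    rw [lam_mo (C := 1) (fun g => abs_ind_le _ _)]
    congr 2
    funext g
    rw [mul_inv_cancel_left]
  rw [← h1, norm_lam]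
  refine le_trans ?_ (hR w hw)
  refine norm_mo_le_mo (C := 1) (D := 1) (fun g => abs_ind_le _ _) (abs_ind_le _) (fun g => ?_) _
  by_cases hx : Reg (max 3 (C * max R 1)) ((a * g : G3) : G3)
  · have h2 : Reg R (g : G3) := by
      refine Reg.mono (le_max_left R 1) (hsh (max R 1) (by positivity) _ ?_)
      exact Reg.mono (le_max_right _ _) hx
    rw [ind_pos (P := fun g : G3 => Reg (max 3 (C * max R 1)) (g : G3)) hx,
      ind_pos (P := fun g : G3 => Reg R (g : G3)) h2]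
  · rw [ind_neg (P := fun g : G3 => Reg (max 3 (C * max R 1)) (g : G3)) hx, abs_zero]
    exact abs_nonneg _

/-- `q1` tends to zero where `G23` is bounded. -/
theorem q1_low (M : ℝ) :
    Tendsto (fun g : G3 => q1 g * ind (fun g : G3 => G23 g < M) g) cofinite (𝓝 0) := by
  refine squeeze_zero (g := fun g => Real.log (max M 1) / dn g) (fun g =>
    mul_nonneg (q1_nonneg g) (ind_nonneg _ _)) (fun g => ?_) ?_
  · have hd := dn_pos g
    by_cases h : G23 g < M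
    · rw [ind_pos (P := fun g : G3 => G23 g < M) h, mul_one, q1]
      change _ / dn g ≤ _
      have hG : 0 < G23 g := lt_of_lt_of_le (by norm_num) (G23_ge g)
      have : Real.log (G23 g) ≤ Real.log (max M 1) :=
        Real.log_le_log hG (h.le.trans (le_max_left _ _))
      gcongr
    · rw [ind_neg (P := fun g : G3 => G23 g < M) h, mul_zero]
      exact div_nonneg (Real.log_nonneg (le_max_right _ _)) hd.le
  · exact tendsto_const_nhds.div_atTop tendsto_dn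

/-- Functions tending to zero are small on escaping sequences (statement of the lemma of B3). -/
def SmallOf (U : Ultrafilter ℕ) (V : Λ →* (Ell2 G3 →L[ℂ] Ell2 G3)) : Prop :=
  ∀ (z : ℕ → Λ) (D : G3 → ℝ) (C : ℝ), (∀ g, |D g| ≤ C) → Tendsto D cofinite (𝓝 0) →
    (∀ v : Λ, ∀ᶠ k in U, z k ≠ v) → Small U V z (fun _ => D)

/-- Uniform continuity of `f` as a function of `N*`. -/
def UC (f : G3 → ℝ) : Prop :=
  ∀ δ : ℝ, 0 < δ → ∃ η : ℝ, 0 < η ∧ ∀ g g' : G3, δ ≤ |f g - f g'| → η ^ 2 ≤ hs (NS g - NS g')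

theorem far_of_conf (hV : Frame V) {U : Ultrafilter ℕ} (hsm : SmallOf U V) {K : Subgroup Λ}
    (hc : Conf V K) {z z' : ℕ → Λ} (hz : ∀ k, ∀ v ∈ K, z k * v = v * z k)
    (hz' : ∀ k, ∀ v ∈ K, z' k * v = v * z' k) (hU : ∀ v : Λ, ∀ᶠ k in U, z k ≠ v)
    (hU' : ∀ v : Λ, ∀ᶠ k in U, z' k ≠ v) {f : G3 → ℝ} (hf : UC f) (a b : G3) :
    Far U V z z' q1 f a b := by
  intro δ₀ hδ₀ ε hε
  obtain ⟨δ, hδ, hfδ⟩ := hf δ₀ hδ₀
  have hinv : ∀ (y : ℕ → Λ), (∀ k, ∀ v ∈ K, y k * v = v * y k) →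
      ∀ k w, (w = y k ∨ w = (y k)⁻¹) → (∀ v ∈ K, w * v = v * w) ∧ (∀ v ∈ K, w⁻¹ * v = v * w⁻¹) := by
    intro y hy k w hw
    have key : ∀ v ∈ K, (y k)⁻¹ * v = v * (y k)⁻¹ := by
      intro v hv
      have := hy k v hv
      rw [inv_mul_eq_iff_eq_mul, ← mul_assoc, this, mul_assoc, mul_inv_cancel, mul_one]
    rcases hw with rfl | rfl
    · exact ⟨hy k, key⟩
    · rw [inv_inv]; exact ⟨key, hy k⟩
  obtain ⟨Ra, hRa3, hRa⟩ := conf_shift hV hc a (show 0 < ε / 2 by positivity)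
  obtain ⟨Rb, hRb3, hRb⟩ := conf_shift hV hc b (show 0 < ε / 2 by positivity)
  obtain ⟨R0, hR0⟩ : ∃ R0 : ℝ, R0 = max Ra Rb := ⟨_, rfl⟩
  have hR03 : 3 ≤ R0 := by rw [hR0]; exact hRa3.trans (le_max_left _ _)
  obtain ⟨hT1, F, hF⟩ := T1 (G3 := G3) (R0 := R0) (δ := δ) (by linarith) hδ
  obtain ⟨T, hT⟩ : ∃ T : Finset G3, ∀ x : G3, (x : G3) ∈ F → x ∈ T := ⟨F, fun _ h => h⟩
  obtain ⟨R1, hR1⟩ := hc (ε / (Real.sqrt T.card + 1)) (by positivity)
  obtain ⟨κ, hκ⟩ : ∃ κ : ℝ, κ = (δ ^ 2 / (2 * R0)) ^ 2 := ⟨_, rfl⟩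
  have hκ0 : 0 < κ := by rw [hκ]; positivity
  obtain ⟨M, hM⟩ : ∃ M : ℝ, M = max R0 (R1 / κ) := ⟨_, rfl⟩
  have hMR : R0 ≤ M := by rw [hM]; exact le_max_left _ _
  have hMκ : R1 ≤ κ * M := by
    have : R1 / κ ≤ M := by rw [hM]; exact le_max_right _ _
    rw [div_le_iff₀ hκ0] at this
    linarith
  -- the mass outside of `E`
  have hmass : ∀ (y : ℕ → Λ), (∀ k, ∀ v ∈ K, y k * v = v * y k) → (∀ v : Λ, ∀ᶠ k in U, y k ≠ v) →
      ∀ (a : G3) (Ra : ℝ), Ra ≤ R0 → (∀ w : Λ, (∀ v ∈ K, w * v = v * w) →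
        ‖mo (ind fun g : G3 => Reg Ra (g : G3)) (lam a (V w (dl 1)))‖ ≤ ε / 2) →
      ∀ᶠ k in U, ∀ w, (w = y k ∨ w = (y k)⁻¹) →
        ‖mo (fun g : G3 => q1 (g : G3) *
          ind (fun g : G3 => ¬ (G12 (g : G3) ≤ R0 ∧ M ≤ G23 (g : G3))) g) (Wr V w (dl a))‖ ≤ ε := by
    intro y hy hyU a Ra hRaR0 hRa
    have hlow : Tendsto (fun g : G3 => q1 (g : G3) * ind (fun g : G3 => G23 g < M) (g : G3))
        cofinite (𝓝 0) := q1_low M
    have hlowb : ∀ g : G3, |q1 (g : G3) * ind (fun g : G3 => G23 g < M) (g : G3)| ≤ 1 := by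
      intro g
      rw [abs_mul, abs_of_nonneg (q1_nonneg _)]
      exact mul_le_one₀ (q1_le_one _) (abs_nonneg _) (abs_ind_le _ _)
    have hy' : ∀ v : Λ, ∀ᶠ k in U, (y k)⁻¹ ≠ v := by
      intro v
      filter_upwards [hyU v⁻¹] with k hk h
      exact hk (by rw [← h, inv_inv])
    have s1 := hsm y _ 1 hlowb hlow hyU (dl a)
    have s2 := hsm (fun k => (y k)⁻¹) _ 1 hlowb hlow hy' (dl a)
    filter_upwards [(Metric.tendsto_nhds.mp s1) (ε / 2) (by positivity),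
      (Metric.tendsto_nhds.mp s2) (ε / 2) (by positivity)] with k hk1 hk2 w hw
    rw [dist_zero_right, norm_norm] at hk1 hk2
    have hlow2 : ‖mo (fun g : G3 => q1 (g : G3) * ind (fun g : G3 => G23 g < M) (g : G3))
        (Wr V w (dl a))‖ < ε / 2 := by
      rcases hw with rfl | rfl
      · exact hk1
      · exact hk2
    have hreg : ‖mo (ind fun g : G3 => Reg R0 (g : G3)) (Wr V w (dl a))‖ ≤ ε / 2 := by
      have e1 : Wr V w (dl a : Ell2 G3) = lam a (V w⁻¹ (dl 1)) := by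
        rw [dl_eq_lam a, Wr_lam hV, Wr_xi hV]
      rw [e1]
      refine le_trans (norm_mo_ind_mono (fun g hg => Reg.mono hRaR0 hg) _) (hRa w⁻¹ ?_)
      exact (hinv y hy k w hw).2
    have hsplit : ‖mo (fun g : G3 => q1 (g : G3) *
          ind (fun g : G3 => ¬ (G12 (g : G3) ≤ R0 ∧ M ≤ G23 (g : G3))) g) (Wr V w (dl a))‖ ≤
        ‖mo (fun g : G3 => ind (fun g : G3 => Reg R0 (g : G3)) g +
          q1 (g : G3) * ind (fun g : G3 => G23 g < M) (g : G3)) (Wr V w (dl a))‖ := by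
      refine norm_mo_le_mo (C := 1) (D := 1 + 1) (fun g => ?_) (fun g => ?_) (fun g => ?_) _
      · rw [abs_mul, abs_of_nonneg (q1_nonneg _)]
        exact mul_le_one₀ (q1_le_one _) (abs_nonneg _) (abs_ind_le _ _)
      · exact (abs_add_le _ _).trans (add_le_add (abs_ind_le _ _) (hlowb g))
      · have hq0 := q1_nonneg (g : G3)
        have hq1 := q1_le_one (g : G3)
        have hpos : 0 ≤ ind (fun g : G3 => Reg R0 (g : G3)) g +
            q1 (g : G3) * ind (fun g : G3 => G23 g < M) (g : G3) :=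
          add_nonneg (ind_nonneg _ _) (mul_nonneg hq0 (ind_nonneg _ _))
        rw [abs_of_nonneg hpos, abs_of_nonneg (mul_nonneg hq0 (ind_nonneg _ _))]
        by_cases hE : G12 (g : G3) ≤ R0 ∧ M ≤ G23 (g : G3)
        · rw [ind_neg (P := fun g : G3 => ¬ (G12 (g : G3) ≤ R0 ∧ M ≤ G23 (g : G3)))
            (fun h => h hE), mul_zero]
          exact hpos
        · rw [ind_pos (P := fun g : G3 => ¬ (G12 (g : G3) ≤ R0 ∧ M ≤ G23 (g : G3))) hE, mul_one]
          by_cases h23 : G23 (g : G3) < M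
          · rw [ind_pos (P := fun g : G3 => G23 g < M) h23, mul_one]
            linarith [ind_nonneg (fun g : G3 => Reg R0 (g : G3)) g]
          · rw [not_lt] at h23
            have h12 : R0 < G12 (g : G3) := by
              by_contra h
              exact hE ⟨not_lt.mp h, h23⟩
            have hReg : Reg R0 (g : G3) := ⟨h12.le, hMR.trans h23⟩
            rw [ind_pos (P := fun g : G3 => Reg R0 (g : G3)) hReg]
            have := mul_nonneg hq0 (ind_nonneg (fun g : G3 => G23 g < M) (g : G3))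
            linarith
    refine hsplit.trans ?_
    rw [mo_add (abs_ind_le _) hlowb]
    refine (norm_add_le _ _).trans ?_
    linarith
  refine ⟨fun g : G3 => G12 (g : G3) ≤ R0 ∧ M ≤ G23 (g : G3), fun g : G3 => Reg R1 (g : G3), T,
    hmass z hz hU a Ra (by rw [hR0]; exact le_max_left _ _) hRa,
    hmass z' hz' hU' b Rb (by rw [hR0]; exact le_max_right _ _) hRb, ?_, ?_, ?_⟩
  · intro k h hk hh hd
    have hd' : δ ^ 2 ≤ hs (NS (k : G3) - NS (h : G3)) := hfδ _ _ hd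
    have h1 := hT1 (k : G3) (h : G3) hk.1 hh.1 hd'
    rw [← hκ] at h1
    refine ⟨hMκ.trans (le_trans ?_ h1.1), hMκ.trans (le_trans ?_ h1.2)⟩
    · exact mul_le_mul_of_nonneg_left hk.2 hκ0.le
    · exact mul_le_mul_of_nonneg_left hh.2 hκ0.le
  · intro k₁ h₁ k₂ h₂ e1 e2 e3 e4 d1 d2 he
    have hd' : ∀ k h : G3, δ₀ ≤ |f k - f h| →
        δ ^ 2 ≤ hs (NS (k : G3) - NS (h : G3)) := fun k h hd => hfδ _ _ hd
    refine hT _ ?_
    have he' : (k₁ : G3)⁻¹ * (h₁ : G3) = (k₂ : G3)⁻¹ * (h₂ : G3) := he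
    exact hF _ _ _ _ e1.1 e2.1 e3.1 e4.1 (hd' _ _ d1) (hd' _ _ d2) he'
  · intro k l w v hw hv
    have hwv : ∀ x ∈ K, (w * v⁻¹) * x = x * (w * v⁻¹) := by
      intro x hx
      have h1 := (hinv z hz k w hw).1 x hx
      have h2 := (hinv z' hz' l v hv).2 x hx
      rw [mul_assoc, h2, ← mul_assoc, h1, mul_assoc]
    have h3 := hR1 _ hwv
    calc Real.sqrt T.card * _ ≤ Real.sqrt T.card * (ε / (Real.sqrt T.card + 1)) := by gcongr
      _ ≤ ε := by
        rw [mul_div_assoc', div_le_iff₀ (by positivity)]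
        nlinarith [Real.sqrt_nonneg (T.card : ℝ)]

end Vale.Agent.P092.L.H553
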