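import Vale.Agent.P092.H553.Asm
import Vale.Agent.P092.L.H553.FarOf

/-!
P092, stage (L) (helper776, after helper553): the limit `Π` attached to a vertex, for a general
uniformly continuous function of `N*`.
-/

set_option linter.all false

open scoped InnerProductSpace
open Filter Topology ContinuousLinearMap

namespace Vale.Agent.P092.L.H553

open Vale.Agent.P092.H160 Vale.Agent.P092.L.H132 Vale.Agent.P092.L.H732 Vale.Agent.P092.H200
open Vale.Agent.P092.H553 hiding G3 en rm rA rB G12 G23 Reg NN NS qq qq_mem abs_qq qq_tendsto hh hh_mem abs_hh qh_tendsto small_qh pi2_total link_eq joined_eq stab_comm Conf far_of_conf SmallOf tendsto_sub reg_iff reg_shift conf_shift q1_low norm_mo_ind_mono Reg.mono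

section

variable {G3 : Type} [Group G3] [Emb G3]
variable {Λ : Type} [Group Λ] {V : Λ →* (Ell2 G3 →L[ℂ] Ell2 G3)}

theorem q1_mem (g : G3) : 0 ≤ q1 g ∧ q1 g ≤ 1 := ⟨q1_nonneg _, q1_le_one _⟩

theorem abs_q1 (g : G3) : |q1 g| ≤ 1 := by
  rw [abs_of_nonneg (q1_mem g).1]; exact (q1_mem g).2

/-- Admissible functions. -/
structure Adm (f : G3 → ℝ) : Prop where
  mem : ∀ g, 0 ≤ f g ∧ f g ≤ 1
  uc : UC f

theorem Adm.abs {f : G3 → ℝ} (hf : Adm f) (g : G3) : |f g| ≤ 1 := by
  rw [abs_of_nonneg (hf.mem g).1]; exact (hf.mem g).2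

theorem Adm.right {f : G3 → ℝ} (hf : Adm f) (t : G3) :
    Tendsto (fun g : G3 => q1 g * (f (g * t) - f g)) cofinite (𝓝 0) := by
  rw [Metric.tendsto_nhds]
  intro ε hε
  obtain ⟨η, hη, hfη⟩ := hf.uc (ε / 2) (by positivity)
  obtain ⟨M, hM⟩ : ∃ M : ℝ, M = 4 * (rA t * rB t) / η ^ 2 + 1 := ⟨_, rfl⟩
  filter_upwards [(Metric.tendsto_nhds.mp (q1_low (G3 := G3) M)) (ε / 2) (by positivity)] with g hg
  rw [dist_zero_right, Real.norm_eq_abs] at hg ⊢
  rw [abs_mul, abs_of_nonneg (q1_nonneg g)]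
  by_cases h : G23 g < M
  · rw [ind_pos (P := fun g : G3 => G23 g < M) h, mul_one, abs_of_nonneg (q1_nonneg g)] at hg
    have h1 : |f (g * t) - f g| ≤ 1 := by
      have := hf.mem g
      have := hf.mem (g * t)
      rw [abs_le]; constructor <;> linarith
    calc q1 g * |f (g * t) - f g| ≤ q1 g * 1 := mul_le_mul_of_nonneg_left h1 (q1_nonneg g)
      _ < ε := by rw [mul_one]; linarith
  · have h2 : |f (g * t) - f g| < ε / 2 := by
      by_contra hcon
      have h3 := hfη _ _ (not_lt.mp hcon)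
      have h4 := hs_NS_right g t
      have hG : 0 < G23 g := lt_of_lt_of_le (by norm_num) (G23_ge g)
      have h5 : 4 * (rA t * rB t) / G23 g < η ^ 2 := by
        rw [div_lt_iff₀ hG]
        have h6 : M ≤ G23 g := not_lt.mp h
        have h7 : η ^ 2 * M = 4 * (rA t * rB t) + η ^ 2 := by
          rw [hM]; field_simp
        have h8 : 0 < η ^ 2 := by positivity
        nlinarith
      linarith
    calc q1 g * |f (g * t) - f g| ≤ 1 * |f (g * t) - f g| :=
          mul_le_mul_of_nonneg_right (q1_le_one g) (abs_nonneg _)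
      _ < ε := by rw [one_mul]; linarith

theorem qf_tendsto {f : G3 → ℝ} (hf : Adm f) (t : G3) :
    Tendsto (fun g : G3 => q1 (g * t) * f (g * t) - q1 g * f g) cofinite (𝓝 0) := by
  have h1 := q1_tendsto (1 : G3) t
  have h2 := hf.right t
  have h3 := h1.abs.add h2.abs
  rw [abs_zero, add_zero] at h3
  refine squeeze_zero_norm (fun g => ?_) h3
  rw [Real.norm_eq_abs, one_mul]
  have e : q1 (g * t) * f (g * t) - q1 g * f g =
      (q1 (g * t) - q1 g) * f (g * t) + q1 g * (f (g * t) - f g) := by ring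
  rw [e]
  refine (abs_add_le _ _).trans (add_le_add ?_ le_rfl)
  rw [abs_mul]
  exact mul_le_of_le_one_right (abs_nonneg _) (hf.abs _)

theorem pi2_total (hV : Frame V) {A : Subgroup Λ} (hA : Vertex A) {z : ℕ → Λ} (hz : SeqIn A z) :
    Pi2 Uf V z (q1 (G3 := G3)) (fun _ => 1) = 1 := by
  have h := H967.pl_total hV Uf z A hz.1 (fun k v hv => hA.2 _ (hz.1 k) _ hv) hz.2
    (q1 (G3 := G3)) q1_mem (fun g => q1_inv (g : G3)) q1_tendsto
  unfold Pi2
  simp only [mul_one]
  exact h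

theorem smallOfL (hV : Frame V) : SmallOf Uf V := by
  intro z D C hD hD0 hU
  exact H967.small_of_tendsto hV hU hD hD0

theorem sepEstL (hV : Frame V) : SepEst V := by
  intro u η ζ P T h1 h2
  exact H956.sep_est hV u η ζ P T h1 h2

theorem small_qf (hV : Frame V) {f : G3 → ℝ} (hf : Adm f) {z : ℕ → Λ}
    (hz : ∀ v : Λ, ∀ᶠ k in Uf, z k ≠ v) (t : G3) :
    Small Uf V z (fun _ g => q1 (g * t) * f (g * t) - q1 g * f g) := by
  refine H967.small_of_tendsto hV hz (C := 1 + 1) (fun g => ?_) (qf_tendsto hf t)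
  exact (abs_sub _ _).trans (add_le_add (abs_mul_le_one (abs_q1 _) (hf.abs _))
    (abs_mul_le_one (abs_q1 _) (hf.abs _)))

/-- linked vertices have the same limit -/
theorem link_eq (hV : Frame V) (hconf : ∀ K : Subgroup Λ, NoMean K → Conf V K)
    {A B : Subgroup Λ} (h : Link A B) {z z' : ℕ → Λ} (hz : SeqIn A z) (hz' : SeqIn B z')
    {f : G3 → ℝ} (hf : Adm f) : Pi2 Uf V z q1 f = Pi2 Uf V z' q1 f := by
  apply op_ext
  intro a
  refine ext_inner_dl fun b => ?_
  rw [← inner_dl, ← inner_dl]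
  refine balance hV (sepEstL hV) Uf z z' q1_mem hf.mem (pi2_total hV h.1 hz)
    (pi2_total hV h.2.1 hz') a b ?_
  have hK := hconf _ h.2.2
  refine far_of_conf hV (smallOfL hV) hK (fun k v hv => ?_)
    (fun k v hv => ?_) hz.2 hz'.2 hf.uc a b
  · exact Subgroup.mem_centralizer_iff.mp (Subgroup.mem_inf.mp hv).1 _ (hz.1 k)
  · exact Subgroup.mem_centralizer_iff.mp (Subgroup.mem_inf.mp hv).2 _ (hz'.1 k)

theorem joined_eq (hV : Frame V) (hconf : ∀ K : Subgroup Λ, NoMean K → Conf V K)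
    {A B : Subgroup Λ} (hA : Link A A) (h : Joined A B) {z z' : ℕ → Λ} (hz : SeqIn A z)
    (hz' : SeqIn B z') {f : G3 → ℝ} (hf : Adm f) :
    Pi2 Uf V z q1 f = Pi2 Uf V z' q1 f := by
  induction h generalizing z' with
  | refl => exact link_eq hV hconf hA hz hz' hf
  | tail _ h2 ih =>
    obtain ⟨y, hy⟩ := exists_seqIn h2.1.1
    rw [ih hy, link_eq hV hconf h2 hy hz' hf]

theorem stab_comm (hV : Frame V) (hconf : ∀ K : Subgroup Λ, NoMean K → Conf V K)
    {A : Subgroup Λ} (hA : Link A A) {z : ℕ → Λ} (hz : SeqIn A z) {f : G3 → ℝ} (hf : Adm f)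
    {v : Λ} (hv : v ∈ stab A) :
    Pi2 Uf V z q1 f * Wr V v = Wr V v * Pi2 Uf V z q1 f := by
  have h1 := joined_eq hV hconf hA (mem_stab.mp hv) hz (hz.cj v) hf
  have hb : ∀ (k : ℕ) (g : G3), |q1 g * f g| ≤ 1 := fun _ g =>
    abs_mul_le_one (abs_q1 g) (hf.abs g)
  have e1 := pl_conj (U := Uf) hV (F := fun _ g => q1 g * f g) hb v z
    (fun t => small_qf hV hf hz.2 t)
  have e2 := pl_conj (U := Uf) hV (F := fun _ g => q1 g * f g) hb v (fun k => (z k)⁻¹)
    (fun t => small_qf hV hf hz.inv t)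
  conv_lhs => rw [h1]
  have e3 : (fun k => (v * z k * v⁻¹)⁻¹) = fun k => v * (z k)⁻¹ * v⁻¹ := by
    funext k; group
  unfold Pi2
  rw [e3, add_mul, mul_add, e1, e2]

end

end Vale.Agent.P092.L.H553
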