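import Vale.Agent.P092.L.H553.Asm
import Vale.Agent.P092.H553.Contra
import Vale.Agent.P092.H377.NoInv

/-!
P092, stage (L) (helper776, after helper553): the state on `C(XX)`, invariant under the group.
-/

set_option linter.all false

open scoped InnerProductSpace
open Filter Topology ContinuousLinearMap

namespace Vale.Agent.P092.L.H553

open Vale.Agent.P092.H160 Vale.Agent.P092.L.H732 Vale.Agent.P092.H200
open Vale.Agent.P092.H553 hiding G3 en rm rA rB G12 G23 Reg NN NS qq qq_mem abs_qq qq_tendsto hh hh_mem abs_hh qh_tendsto small_qh pi2_total link_eq joined_eq stab_comm Conf far_of_conf SmallOf tendsto_sub reg_iff reg_shift conf_shift q1_low norm_mo_ind_mono Reg.mono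
open Vale.Agent.P092.H377 (XX nsx nsx_val nsx_mul aX actX CAct isCompact_XX SL3R)

section

variable {G3 : Type} [Group G3] [Emb G3]
variable {Λ : Type} [Group Λ] {V : Λ →* (Ell2 G3 →L[ℂ] Ell2 G3)}

instance : CompactSpace XX := isCompact_iff_compactSpace.mp isCompact_XX

/-- The function `g ↦ F (N*(g))`. -/
noncomputable def FN (F : C(XX, ℝ)) : G3 → ℝ := fun g => F (nsx (Emb.hom g))

theorem nsx_NS (g : G3) : (nsx (Emb.hom g : SL3R) : Matrix (Fin 3) (Fin 3) ℝ) = NS g := by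
  rw [nsx_val]
  have e : ((Emb.hom g : SL3R)⁻¹ : SL3R) = Emb.hom g⁻¹ := (map_inv _ _).symm
  rw [e]
  rfl

theorem abs_FN (F : C(XX, ℝ)) (g : G3) : |FN F g| ≤ ‖F‖ := F.norm_coe_le_norm _

theorem sub_entry_lt {M N : Matrix (Fin 3) (Fin 3) ℝ} {ε : ℝ} (hε : 0 < ε)
    (h : hs (M - N) < ε ^ 2) (i j : Fin 3) : |M i j - N i j| < ε :=
  abs_lt_of_sq_lt_sq (lt_of_le_of_lt (sq_entry_le (M - N) i j) h) hε.le

theorem uc_FN (F : C(XX, ℝ)) : UC (FN (G3 := G3) F) := by
  intro δ hδ
  letI inst : PseudoMetricSpace (Matrix (Fin 3) (Fin 3) ℝ) :=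
    inferInstanceAs (PseudoMetricSpace (Fin 3 → Fin 3 → ℝ))
  have hu : UniformContinuous F := CompactSpace.uniformContinuous_of_continuous F.continuous
  obtain ⟨η, hη, h⟩ := (Metric.uniformContinuous_iff (α := XX) (β := ℝ)).mp hu δ hδ
  refine ⟨η, hη, fun g g' hd => ?_⟩
  by_contra hcon
  have h0 : dist (nsx (Emb.hom g)) (nsx (Emb.hom g')) < η := by
    rw [Subtype.dist_eq, nsx_NS, nsx_NS]
    exact (dist_pi_lt_iff hη).2 fun i => (dist_pi_lt_iff hη).2 fun j =>
      sub_entry_lt hη (not_le.mp hcon) i j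
  have h1 := h h0
  rw [Real.dist_eq] at h1
  exact absurd h1 (not_lt.mpr hd)

theorem nu_add (hV : Frame V) (L : Subgroup Λ) [Fintype (Λ ⧸ L)] {z : ℕ → Λ} {q F G : G3 → ℝ}
    {C D : ℝ} (hF : ∀ g, |q g * F g| ≤ C) (hG : ∀ g, |q g * G g| ≤ D) :
    nu Uf V L z q (fun g => F g + G g) = nu Uf V L z q F + nu Uf V L z q G := by
  have h : Pi2 Uf V z q (fun g => F g + G g) = Pi2 Uf V z q F + Pi2 Uf V z q G := by
    unfold Pi2
    have e : (fun (_ : ℕ) g => q g * (F g + G g)) = fun _ g => q g * F g + q g * G g := by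
      funext _ g; ring
    rw [e, pl_add hV (fun _ => hF) (fun _ => hG), pl_add hV (fun _ => hF) (fun _ => hG)]
    abel
  rw [nu_eq hV, nu_eq hV, nu_eq hV, h, ← Finset.sum_add_distrib]
  refine Finset.sum_congr rfl fun c _ => ?_
  rw [add_apply, inner_add_right, Complex.add_re]

theorem nu_smul (hV : Frame V) (L : Subgroup Λ) [Fintype (Λ ⧸ L)] {z : ℕ → Λ} {q F : G3 → ℝ}
    {C : ℝ} (hF : ∀ g, |q g * F g| ≤ C) (c : ℝ) :
    nu Uf V L z q (fun g => c * F g) = c * nu Uf V L z q F := by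
  have h : Pi2 Uf V z q (fun g => c * F g) = (c : ℂ) • Pi2 Uf V z q F := by
    unfold Pi2
    have e : (fun (_ : ℕ) g => q g * (c * F g)) = fun _ g => c * (q g * F g) := by
      funext _ g; ring
    rw [e, pl_smul hV c (fun _ => hF), pl_smul hV c (fun _ => hF), smul_add]
  rw [nu_eq hV, nu_eq hV, h, Finset.mul_sum]
  refine Finset.sum_congr rfl fun d _ => ?_
  rw [smul_apply, inner_smul_right, Complex.re_ofReal_mul]

theorem abs_q1_mul {f : G3 → ℝ} {C : ℝ} (hf : ∀ g, |f g| ≤ C) (g : G3) : |q1 g * f g| ≤ C := by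
  rw [abs_mul]
  have h1 := abs_q1 g
  have h2 := hf g
  calc |q1 g| * |f g| ≤ 1 * |f g| := mul_le_mul_of_nonneg_right h1 (abs_nonneg _)
    _ ≤ C := by rw [one_mul]; exact h2

theorem nu_inv_adm (hV : Frame V) (hconf : ∀ K : Subgroup Λ, NoMean K → Conf V K)
    {A : Subgroup Λ} (hA : Link A A) [Fintype (Λ ⧸ stab A)] {z : ℕ → Λ} (hz : SeqIn A z)
    {f : G3 → ℝ} (hf : Adm f) (s : G3) :
    nu Uf V (stab A) z q1 (fun g => f (s * g)) = nu Uf V (stab A) z q1 f := by
  have hD : Tendsto (fun g : G3 => q1 (s⁻¹ * g) * f g - q1 g * f g) cofinite (𝓝 0) := by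
    have h1 := (q1_tendsto (G3 := G3) s⁻¹ 1).abs
    rw [abs_zero] at h1
    refine squeeze_zero_norm (fun g => ?_) h1
    rw [Real.norm_eq_abs, ← sub_mul, abs_mul, mul_one]
    exact mul_le_of_le_one_right (abs_nonneg _) (hf.abs g)
  have hDb : ∀ g : G3, |q1 (s⁻¹ * g) * f g - q1 g * f g| ≤ 1 + 1 := fun g =>
    (abs_sub _ _).trans (add_le_add (abs_mul_le_one (abs_q1 _) (hf.abs g))
      (abs_mul_le_one (abs_q1 _) (hf.abs g)))
  exact nu_inv hV _ abs_q1 hf.abs (fun v hv => stab_comm hV hconf hA hz hf hv) s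
    (smallOfL hV z _ _ hDb hD hz.2) (smallOfL hV _ _ _ hDb hD hz.inv)

/-- The invariant state on `C(XX)`. -/
theorem exists_state (hV : Frame V) (hconf : ∀ K : Subgroup Λ, NoMean K → Conf V K)
    (hΛ : Clustered Λ) :
    ∃ ℓ : C(XX, ℝ) →ₗ[ℝ] ℝ, (∀ F, 0 ≤ F → 0 ≤ ℓ F) ∧ 0 < ℓ 1 ∧
      ∀ (s : G3) (F : C(XX, ℝ)), ℓ (actX.pull (Emb.hom s) F) = ℓ F := by
  obtain ⟨A, hA, hfi⟩ := hΛ
  obtain ⟨z, hz⟩ := exists_seqIn hA.1.1
  haveI : Fintype (Λ ⧸ stab A) := Subgroup.fintypeQuotientOfFiniteIndex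
  have hone := pi2_total (G3 := G3) hV hA.1 hz
  have hn1 : nu Uf V (stab A) z (q1 (G3 := G3)) (fun _ => 1) = Fintype.card (Λ ⧸ stab A) :=
    nu_one hV _ hone
  have hpos : (0 : ℝ) < Fintype.card (Λ ⧸ stab A) := by
    exact_mod_cast Fintype.card_pos
  have hb : ∀ (F : C(XX, ℝ)) (g : G3), |q1 g * FN F g| ≤ ‖F‖ := fun F g =>
    abs_q1_mul (abs_FN F) g
  have hc : ∀ g : G3, |q1 g * (1 : ℝ)| ≤ 1 := fun g => by rw [mul_one]; exact abs_q1 g
  refine ⟨{ toFun := fun F => nu Uf V (stab A) z (q1 (G3 := G3)) (FN F)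
            map_add' := fun F G => nu_add hV _ (hb F) (hb G)
            map_smul' := fun c F => nu_smul hV _ (hb F) c }, ?_, ?_, ?_⟩
  · intro F hF
    change 0 ≤ nu Uf V (stab A) z (q1 (G3 := G3)) (FN F)
    have h0 : nu Uf V (stab A) z (q1 (G3 := G3)) (fun _ => 0) = 0 := by
      rw [nu_const hV _ abs_q1 0, zero_mul]
    rw [← h0]
    refine nu_mono hV _ (fun g => (q1_mem g).1) (C := 0) (fun g => by simp) (hb F) fun g => ?_
    exact hF _
  · change 0 < nu Uf V (stab A) z (q1 (G3 := G3)) (fun _ => 1)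
    rw [hn1]; exact hpos
  · intro s F
    change nu Uf V (stab A) z (q1 (G3 := G3)) (fun g => F (aX (Emb.hom s) (nsx (Emb.hom g)))) =
      nu Uf V (stab A) z (q1 (G3 := G3)) (FN F)
    have e1 : (fun g : G3 => F (aX (Emb.hom s) (nsx (Emb.hom g)))) = fun g => FN F (s * g) := by
      funext g
      rw [FN, map_mul, nsx_mul]
    rw [e1]
    -- normalise to an admissible function
    obtain ⟨c, hcd⟩ : ∃ c : ℝ, c = ‖F‖ + 1 := ⟨_, rfl⟩
    have hcpos : 0 < c := by rw [hcd]; positivity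
    have hFc : ∀ g : G3, |FN F g| ≤ c := fun g => (abs_FN F g).trans (by rw [hcd]; linarith)
    obtain ⟨f, hfd⟩ : ∃ f : G3 → ℝ, f = fun g => (FN F g + c) / (2 * c) := ⟨_, rfl⟩
    have hf : Adm f := by
      refine ⟨fun g => ?_, fun δ hδ => ?_⟩
      · have := abs_le.mp (hFc g)
        rw [hfd]
        constructor
        · exact div_nonneg (by linarith) (by positivity)
        · rw [div_le_one (by positivity)]; linarith
      · obtain ⟨η, hη, h⟩ := uc_FN (G3 := G3) F (2 * c * δ) (by positivity)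
        refine ⟨η, hη, fun g g' hd => h g g' ?_⟩
        have e : f g - f g' = (FN F g - FN F g') / (2 * c) := by rw [hfd]; ring
        rw [e, abs_div, abs_of_pos (show 0 < 2 * c by positivity), le_div_iff₀ (by positivity)] at hd
        linarith
    have key := nu_inv_adm hV hconf hA hz hf s
    have hlin : ∀ t : G3, nu Uf V (stab A) z q1 (fun g => FN F (t * g)) =
        2 * c * nu Uf V (stab A) z q1 (fun g => f (t * g)) +
          (-c) * nu Uf V (stab A) z (q1 (G3 := G3)) (fun _ => 1) := by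
      intro t
      rw [← nu_smul hV _ (C := 1) (fun g => abs_q1_mul (fun g => hf.abs (t * g)) g) (2 * c),
        ← nu_const hV _ abs_q1 (-c),
        ← nu_add hV _ (C := 2 * c) (D := c) (fun g => ?_) (fun g => ?_)]
      · congr 1
        funext g
        rw [hfd]
        field_simp
        ring
      · refine abs_q1_mul (f := fun g => 2 * c * f (t * g)) (fun g => ?_) g
        rw [abs_mul, abs_of_pos (show 0 < 2 * c by positivity)]
        exact mul_le_of_le_one_right (by positivity) (hf.abs _)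
      · refine abs_q1_mul (f := fun _ => -c) (fun g => ?_) g
        rw [abs_neg, abs_of_pos hcpos]
    have h1 := hlin s
    have h2 := hlin 1
    simp only [one_mul] at h2
    rw [h1, h2, key]

end

end Vale.Agent.P092.L.H553
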